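import Vale.Agent.P087.Bdl.B2

namespace Vale.Agent.Results.P087.MicrostatesGap

open Vale.Agent.P087.FD

/-- There is a finite self-adjoint tuple `X` in a tracial von Neumann algebra with
`-∞ < χ(X) < χ^*(X)`. -/
theorem result :
    ∃ (H : Type) (_ : NormedAddCommGroup H) (_ : InnerProductSpace ℂ H) (_ : CompleteSpace H),
      Gap H :=
  final

end Vale.Agent.Results.P087.MicrostatesGap
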